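import Vale.Agent.P267.H581.Cor3
import Vale.Agent.P267.H615.Kato

/-! # P267 / COR (helper581), part 4: coordinates which are flat to order 5 at the punctured end
can be corrected to holomorphic coordinates; consequence for global spherical shells. -/

set_option autoImplicit false

open Set Metric Filter Topology Complex
open scoped NNReal Manifold ContDiff

namespace Vale.Agent.P267.H581

noncomputable section

section Local

variable {Y : Type*} [TopologicalSpace Y] [ChartedSpace V Y] [IsManifold 𝓘(ℂ, V) 1 Y]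

/-- `Θ` is, near every point `x` of the punctured ball, a diffeomorphism whose components in a
holomorphic chart satisfy the structure equations `∂̄_k f = ∑ A_ki ∂_i f`. -/
structure IsStr (Θ : V → Y) (A : V → Fin 2 → Fin 2 → ℂ) (ε : ℝ) : Prop where
  cont : ∀ x, x ≠ 0 → ‖x‖ < ε → ContinuousAt Θ x
  smooth : ∀ x, x ≠ 0 → ‖x‖ < ε → ContDiffAt ℝ 2 (fun y => chartAt V (Θ x) (Θ y)) x
  surj : ∀ x, x ≠ 0 → ‖x‖ < ε →
    Function.Surjective (fderiv ℝ (fun y => chartAt V (Θ x) (Θ y)) x)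
  eqn : ∀ x, x ≠ 0 → ‖x‖ < ε → ∀ᶠ y in 𝓝 x, ∀ j k,
    dzb k (fun y' => chartAt V (Θ x) (Θ y') j) y =
      ∑ i, A y k i * dz i (fun y' => chartAt V (Θ x) (Θ y') j) y

/-- holomorphic reparametrisation of a punctured ball -/
theorem exists_holo_param (hNN : NNStatement) {Θ : V → Y} {A : V → Fin 2 → Fin 2 → ℂ} {ε : ℝ}
    (hε : 0 < ε) (hs : IsStr Θ A ε) (hA : ContDiffOn ℝ 5 A (ball 0 ε \ {0}))
    (hflat : ∀ j ≤ 5, Tendsto (fun x => ‖iteratedFDeriv ℝ j A x‖) (𝓝[≠] 0) (𝓝 0)) :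
    ∃ (G : OpenPartialHomeomorph V V) (s : ℝ), 0 < s ∧ s * 5 ≤ ε ∧ ball 0 (1/4) ⊆ G.source ∧
      G 0 = 0 ∧ (∀ z, ‖z‖ < 1/4 → ‖G z‖ ≤ 2 * s * ‖z‖ ∧ s * ‖z‖ ≤ 2 * ‖G z‖) ∧
      (∀ z, z ≠ 0 → ‖z‖ < 1/4 → MDifferentiableAt 𝓘(ℂ, V) 𝓘(ℂ, V) (fun z => Θ (G z)) z ∧
        Function.Injective (mfderiv 𝓘(ℂ, V) 𝓘(ℂ, V) (fun z => Θ (G z)) z)) := by
  classical
  -- extension over the origin
  set A' : V → Fin 2 → Fin 2 → ℂ := Function.update A 0 0 with hA'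
  have hA'0 : A' 0 = 0 := Function.update_self _ _ _
  have hA'x : ∀ x, x ≠ 0 → A' x = A x := fun x hx => Function.update_of_ne hx _ _
  have hev : ∀ x, x ≠ 0 → A' =ᶠ[𝓝 x] A := by
    intro x hx
    filter_upwards [isOpen_ne.mem_nhds hx] with y hy
    exact hA'x y hy
  have hA'd : ContDiffOn ℝ 5 A' (ball 0 ε \ {0}) := hA.congr fun x hx => hA'x x hx.2
  have hflat' : ∀ j ≤ 5, Tendsto (fun x => ‖iteratedFDeriv ℝ j A' x‖) (𝓝[≠] 0) (𝓝 0) := by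
    intro j hj
    refine (hflat j hj).congr' ?_
    filter_upwards [self_mem_nhdsWithin] with x hx
    rw [((hev x hx).iteratedFDeriv ℝ j).self_of_nhds]
  obtain ⟨hA1, hA2⟩ := contDiffOn_of_punctured hε 5 (by exact_mod_cast hA'd) hA'0 hflat'
  have hA1' : ContDiffOn ℝ 5 A' (ball 0 ε) := by exact_mod_cast hA1
  have hAdiff : ∀ x, ‖x‖ < ε → DifferentiableAt ℝ A' x := fun x hx =>
    (hA1'.differentiableOn (by norm_num)).differentiableAt (isOpen_ball.mem_nhds (by simpa using hx))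
  have hflat2 : ∀ j ≤ 5, ∀ δ : ℝ, 0 < δ → ∃ r : ℝ, 0 < r ∧
      ∀ y, ‖y‖ < r → ‖iteratedFDeriv ℝ j A' y‖ ≤ δ := by
    intro j hj δ hδ
    have h1 : ∀ᶠ x in 𝓝[≠] (0:V), ‖iteratedFDeriv ℝ j A' x‖ < δ :=
      (hflat' j hj).eventually (gt_mem_nhds hδ)
    rw [eventually_nhdsWithin_iff, Metric.eventually_nhds_iff] at h1
    obtain ⟨r, hr, h1⟩ := h1
    refine ⟨r, hr, fun y hy => ?_⟩
    by_cases hy0 : y = 0
    · rw [hy0, hA2 j hj]; exact hδ.le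
    · exact (h1 (by simpa using hy) hy0).le
  have hint : ∀ x, ‖x‖ < ε → ∀ i,
      Lop A' 0 (fun y => A' y 1 i) x = Lop A' 1 (fun y => A' y 0 i) x := by
    intro x hx
    by_cases hx0 : x = 0
    · subst hx0
      intro i
      have h0 : fderiv ℝ A' 0 = 0 := by
        have := hA2 1 (by norm_num)
        rw [← norm_iteratedFDeriv_fderiv, norm_iteratedFDeriv_zero, norm_eq_zero] at this
        exact this
      have hki : ∀ k i, fderiv ℝ (fun y => A' y k i) 0 = 0 := by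
        intro k i
        have h1 := ((((ContinuousLinearMap.proj (R := ℝ) (φ := fun _ : Fin 2 => ℂ) i).comp
          (ContinuousLinearMap.proj (R := ℝ) (φ := fun _ : Fin 2 => Fin 2 → ℂ) k)).hasFDerivAt.comp
          (0:V) (hAdiff 0 (by simpa using hε)).hasFDerivAt)).fderiv
        rw [h0, ContinuousLinearMap.comp_zero] at h1
        exact h1
      simp only [Lop, dz, dzb, hki]
      simp
    · have h1 : DifferentiableAt ℝ A' x := hAdiff x hx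
      refine integrable_at (f := fun y => chartAt V (Θ x) (Θ y)) (hs.smooth x hx0 hx)
        (hs.surj x hx0 hx) h1 ?_
      filter_upwards [hs.eqn x hx0 hx, hev x hx0] with y hy hAy j k
      rw [hAy]; exact hy j k
  obtain ⟨G, s, hs0, hsε, hGs, hG0, hGn, hGd⟩ := exists_param hNN hε hA1' hflat2 hint
  refine ⟨G, s, hs0, hsε, hGs, hG0, hGn, ?_⟩
  intro z hz0 hz
  obtain ⟨hd1, hd2, hd3⟩ := hGd z hz
  obtain ⟨hn1, hn2⟩ := hGn z hz
  have hzpos : 0 < ‖z‖ := norm_pos_iff.2 hz0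
  have hGz0 : G z ≠ 0 := by
    intro h
    rw [h, norm_zero] at hn2
    nlinarith
  have hGzε : ‖G z‖ < ε := by nlinarith
  set x := G z with hx
  have hsm := hs.smooth x hGz0 hGzε
  have hcontG : ContinuousAt G z := hd1.continuousAt
  have hcont : ContinuousAt (fun z => Θ (G z)) z :=
    ContinuousAt.comp (g := Θ) (f := G) (hs.cont x hGz0 hGzε) hcontG
  have hdx : DifferentiableAt ℝ (fun y => chartAt V (Θ x) (Θ y)) x := hsm.differentiableAt (by norm_num)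
  obtain ⟨L, hL, hLη⟩ := holo_comp (A := A x) (f := fun y => chartAt V (Θ x) (Θ y)) (G := G) (z := z)
    hdx hd1 (fun j k => (hs.eqn x hGz0 hGzε).self_of_nhds j k)
    (fun k j => by rw [← hA'x x hGz0]; exact hd3 k j)
  have hinjf : Function.Injective (fderiv ℝ (fun y => chartAt V (Θ x) (Θ y)) x) := by
    have h1 := hs.surj x hGz0 hGzε
    exact (LinearMap.injective_iff_surjective (f := (fderiv ℝ (fun y => chartAt V (Θ x) (Θ y)) x).toLinearMap)).2 h1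
  have hLinj : Function.Injective L := by
    intro a b hab
    rw [hLη, hLη] at hab
    exact hd2 (hinjf hab)
  set e := chartAt V (Θ x) with he
  have hmd : e.MDifferentiable 𝓘(ℂ, V) 𝓘(ℂ, V) := mdifferentiable_chart (Θ x)
  have hsrc : Θ (G z) ∈ e.source := mem_chart_source _ _
  have h1 : MDifferentiableAt 𝓘(ℂ, V) 𝓘(ℂ, V) (fun y => e (Θ (G y))) z :=
    hL.differentiableAt.mdifferentiableAt
  have hM : MDifferentiableAt 𝓘(ℂ, V) 𝓘(ℂ, V) (fun z => Θ (G z)) z := by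
    have h2 : MDifferentiableAt 𝓘(ℂ, V) 𝓘(ℂ, V) e.symm (e (Θ (G z))) :=
      hmd.mdifferentiableAt_symm (e.map_source hsrc)
    refine (MDifferentiableAt.comp z (g := e.symm) h2 h1).congr_of_eventuallyEq ?_
    filter_upwards [hcont.preimage_mem_nhds (e.open_source.mem_nhds hsrc)] with y hy
    exact (e.left_inv hy).symm
  refine ⟨hM, ?_⟩
  have h3 : mfderiv 𝓘(ℂ, V) 𝓘(ℂ, V) (fun y => e (Θ (G y))) z =
      (mfderiv 𝓘(ℂ, V) 𝓘(ℂ, V) e (Θ (G z))).comp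
        (mfderiv 𝓘(ℂ, V) 𝓘(ℂ, V) (fun z => Θ (G z)) z) :=
    mfderiv_comp z (hmd.mdifferentiableAt hsrc) hM
  have h4 : mfderiv 𝓘(ℂ, V) 𝓘(ℂ, V) (fun y => e (Θ (G y))) z = L := by
    rw [mfderiv_eq_fderiv]; exact hL.fderiv
  rw [h4] at h3
  have h5 : Function.Injective ((mfderiv 𝓘(ℂ, V) 𝓘(ℂ, V) e (Θ (G z))) ∘
      (mfderiv 𝓘(ℂ, V) 𝓘(ℂ, V) (fun z => Θ (G z)) z)) := by
    have h6 : ((mfderiv 𝓘(ℂ, V) 𝓘(ℂ, V) e (Θ (G z))) ∘
      (mfderiv 𝓘(ℂ, V) 𝓘(ℂ, V) (fun z => Θ (G z)) z)) = L := by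
      rw [h3]; rfl
    rw [h6]; exact hLinj
  exact Function.Injective.of_comp h5

end Local

/-- **Flat smooth coordinates at a contracting end give a global spherical shell.**
The coordinates `Pi` are only smooth; `A` is the matrix of the complex structure transported to
the punctured ball, and is flat to order five at the origin. -/
theorem hasGSS_of_flat (hNN : NNStatement)
    {X Y : Type*} [TopologicalSpace X] [ChartedSpace V X]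
    [TopologicalSpace Y] [ChartedSpace V Y] [IsManifold 𝓘(ℂ, V) 1 Y]
    -- the covering
    (p : Y → X) (p_surj : Function.Surjective p) (p_holo : MDifferentiable 𝓘(ℂ, V) 𝓘(ℂ, V) p)
    (p_sec : ∀ y, ∃ s : X → Y, s (p y) = y ∧ (∀ᶠ x in 𝓝 (p y), p (s x) = x) ∧
      MDifferentiableAt 𝓘(ℂ, V) 𝓘(ℂ, V) s (p y))
    (φ : Y ≃ₜ Y) (φ_holo : MDifferentiable 𝓘(ℂ, V) 𝓘(ℂ, V) φ)
    (p_eq : ∀ y y', p y = p y' ↔ ∃ k : ℕ, φ^[k] y = y' ∨ φ^[k] y' = y)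
    -- the coordinates
    (Ω : Set Y) (Ω_open : IsOpen Ω) (Pi : Y → V) (Θ : V → Y) (A : V → Fin 2 → Fin 2 → ℂ)
    (ε : ℝ) (ε_pos : 0 < ε)
    (Pi_cont : ContinuousOn Pi Ω)
    (Pi_zero : ∀ y ∈ Ω, Pi y = 0 → ∃ g : Y → ℂ,
      (∀ᶠ z in 𝓝 y, MDifferentiableAt 𝓘(ℂ, V) 𝓘(ℂ) g z) ∧ (∃ᶠ z in 𝓝 y, g z ≠ 0) ∧
      ∀ᶠ z in 𝓝 y, Pi z = 0 → g z = 0)
    (hs : IsStr Θ A ε) (hA : ContDiffOn ℝ 5 A (ball 0 ε \ {0}))
    (hflat : ∀ j ≤ 5, Tendsto (fun x => ‖iteratedFDeriv ℝ j A x‖) (𝓝[≠] 0) (𝓝 0))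
    (Θ_mem : ∀ x, x ≠ 0 → ‖x‖ < ε → Θ x ∈ Ω) (Pi_Θ : ∀ x, x ≠ 0 → ‖x‖ < ε → Pi (Θ x) = x)
    (Θ_Pi : ∀ y ∈ Ω, Pi y ≠ 0 → ‖Pi y‖ < ε → Θ (Pi y) = y)
    (closed : ∀ r < ε, IsClosed {y | y ∈ Ω ∧ ‖Pi y‖ ≤ r})
    -- the contraction
    (ε₁ : ℝ) (ε₁_pos : 0 < ε₁) (C : ℝ) (K : ℕ)
    (lin : ∀ y ∈ Ω, ‖Pi y‖ < ε₁ → φ y ∈ Ω ∧ ‖Pi (φ y)‖ ≤ C * ‖Pi y‖)
    (sq : ∀ y ∈ Ω, ‖Pi y‖ < ε₁ → ‖Pi (φ^[K] y)‖ ≤ C * ‖Pi y‖ ^ 2)
    (absorb : ∀ r : ℝ, 0 < r → ∀ y, ∃ k : ℕ, φ^[k] y ∈ Ω ∧ ‖Pi (φ^[k] y)‖ < r)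
    (exit : ∀ y, ∃ k : ℕ, φ.symm^[k] y ∉ Ω) : HasGSS X := by
  obtain ⟨G, s, hs0, hsε, hGs, hG0, hGn, hGd⟩ := exists_holo_param hNN ε_pos hs hA hflat
  set ρ : ℝ := 1/4 with hρ
  have hρ0 : 0 < ρ := by rw [hρ]; norm_num
  -- the target neighbourhood
  set T : Set V := G '' ball 0 ρ with hT
  have hTo : IsOpen T := G.isOpen_image_of_subset_source isOpen_ball hGs
  have h0T : (0 : V) ∈ T := ⟨0, mem_ball_self hρ0, hG0⟩
  obtain ⟨τ, hτ0, hτ⟩ := Metric.isOpen_iff.1 hTo 0 h0T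
  have hmem : ∀ z : V, ‖z‖ < ρ → z ∈ G.source := fun z hz => hGs (by simpa using hz)
  have hTt : T ⊆ G.target := by
    rintro _ ⟨z, hz, rfl⟩; exact G.map_source (hGs hz)
  have hTsymm : ∀ x ∈ T, ‖G.symm x‖ < ρ ∧ G (G.symm x) = x := by
    rintro _ ⟨z, hz, rfl⟩
    rw [G.left_inv (hGs hz)]
    exact ⟨by simpa using hz, rfl⟩
  have hTε : ∀ x ∈ T, ‖x‖ < ε ∧ ‖x‖ ≤ 2 * s * ‖G.symm x‖ ∧ s * ‖G.symm x‖ ≤ 2 * ‖x‖ := by
    intro x hx
    obtain ⟨h1, h2⟩ := hTsymm x hx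
    obtain ⟨h3, h4⟩ := hGn _ h1
    rw [h2] at h3 h4
    refine ⟨?_, h3, h4⟩
    have := norm_nonneg (G.symm x)
    rw [hρ] at h1
    nlinarith
  have hT0 : ∀ x ∈ T, (G.symm x = 0 ↔ x = 0) := by
    intro x hx
    obtain ⟨-, h3, h4⟩ := hTε x hx
    constructor
    · intro h
      rw [h, norm_zero, mul_zero] at h3
      exact norm_le_zero_iff.1 h3
    · intro h
      rw [h, norm_zero, mul_zero] at h4
      have h5 : ‖G.symm x‖ ≤ 0 := by rw [h]; nlinarith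
      exact norm_le_zero_iff.1 h5
  have hTτ : ∀ x : V, ‖x‖ < τ → x ∈ T := fun x hx => hτ (by simpa using hx)
  -- the new data
  set Ω' : Set Y := {y | y ∈ Ω ∧ Pi y ∈ T} with hΩ'
  have hΩ'o : IsOpen Ω' := Pi_cont.isOpen_inter_preimage Ω_open hTo
  have hsymmc : ContinuousOn G.symm T := G.continuousOn_symm.mono hTt
  have hPi'c : ContinuousOn (fun y => G.symm (Pi y)) Ω' :=
    hsymmc.comp (Pi_cont.mono fun y hy => hy.1) (fun y hy => hy.2)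
  -- constants
  have hC' : 0 ≤ |C| := abs_nonneg C
  set δ : ℝ := min (min (ε₁ / (2 * s)) (τ / (2 * s * (|C| + 1)))) (min 1 (τ / ((2 * s) ^ 2 * (|C| + 1))))
    with hδ
  have hδ0 : 0 < δ := by rw [hδ]; positivity
  refine Vale.Agent.P267.H615.hasGSS_of_germ p p_surj p_holo p_sec φ φ_holo p_eq Ω' hΩ'o
    (fun y => G.symm (Pi y)) (fun z => Θ (G z)) ρ hρ0 hPi'c ?_ ?_ ?_ ?_ ?_ ?_ ?_
    δ hδ0 (max (4 * |C|) (8 * s * |C|)) K ?_ ?_ ?_ ?_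
  · -- holomorphic
    rintro y ⟨hy, hyT⟩ hne hlt
    obtain ⟨h1, h2⟩ := hTsymm _ hyT
    obtain ⟨h3, h4⟩ := hGd _ hne h1
    refine Vale.Agent.P267.H615.mdifferentiableAt_of_inverse (Θ := fun z => Θ (G z)) h3 h4
      (hPi'c.continuousAt (hΩ'o.mem_nhds ⟨hy, hyT⟩)) ?_
    have hne' : Pi y ≠ 0 := fun h => hne ((hT0 _ hyT).2 h)
    have h5 : ∀ᶠ z in 𝓝 y, Pi z ≠ 0 := (Pi_cont.continuousAt (Ω_open.mem_nhds hy)).eventually_ne hne'
    filter_upwards [hΩ'o.mem_nhds ⟨hy, hyT⟩, h5] with z hz hz0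
    rw [(hTsymm _ hz.2).2]
    exact Θ_Pi z hz.1 hz0 (hTε _ hz.2).1
  · -- zero set
    rintro y ⟨hy, hyT⟩ h0
    obtain ⟨g, hg1, hg2, hg3⟩ := Pi_zero y hy ((hT0 _ hyT).1 h0)
    refine ⟨g, hg1, hg2, ?_⟩
    filter_upwards [hg3, hΩ'o.mem_nhds ⟨hy, hyT⟩] with z hz hzΩ h
    exact hz ((hT0 _ hzΩ.2).1 h)
  · intro z hz0 hz
    exact (hGd z hz0 hz).1
  · intro z hz0 hz
    have hGz0 : G z ≠ 0 := by
      intro h
      have := (hGn z hz).2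
      rw [h, norm_zero, mul_zero] at this
      have := norm_pos_iff.2 hz0
      nlinarith
    have hGT : G z ∈ T := ⟨z, by simpa using hz, rfl⟩
    exact ⟨Θ_mem _ hGz0 (hTε _ hGT).1, by rw [Pi_Θ _ hGz0 (hTε _ hGT).1]; exact hGT⟩
  · intro z hz0 hz
    have hGz0 : G z ≠ 0 := by
      intro h
      have := (hGn z hz).2
      rw [h, norm_zero, mul_zero] at this
      have := norm_pos_iff.2 hz0
      nlinarith
    have hGT : G z ∈ T := ⟨z, by simpa using hz, rfl⟩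
    show G.symm (Pi (Θ (G z))) = z
    rw [Pi_Θ _ hGz0 (hTε _ hGT).1, G.left_inv (hmem z hz)]
  · rintro y ⟨hy, hyT⟩ hne hlt
    show Θ (G (G.symm (Pi y))) = y
    rw [(hTsymm _ hyT).2]
    exact Θ_Pi y hy (fun h => hne ((hT0 _ hyT).2 h)) (hTε _ hyT).1
  · intro r hr
    have hcomp : IsCompact (G '' closedBall 0 r) := by
      refine (isCompact_closedBall (0:V) r).image_of_continuousOn (G.continuousOn.mono ?_)
      intro z hz
      exact hmem z ((mem_closedBall_zero_iff.1 hz).trans_lt hr)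
    have h1 : IsClosed {y | y ∈ Ω ∧ ‖Pi y‖ ≤ 2 * s * ρ} := closed _ (by rw [hρ]; linarith)
    have e : {y | y ∈ Ω' ∧ ‖G.symm (Pi y)‖ ≤ r} =
        {y | y ∈ Ω ∧ ‖Pi y‖ ≤ 2 * s * ρ} ∩ Pi ⁻¹' (G '' closedBall 0 r) := by
      ext y
      constructor
      · rintro ⟨⟨h2, h3⟩, h4⟩
        obtain ⟨h5, h6⟩ := hTsymm _ h3
        refine ⟨⟨h2, ?_⟩, ⟨G.symm (Pi y), by simpa using h4, h6⟩⟩
        calc ‖Pi y‖ ≤ 2 * s * ‖G.symm (Pi y)‖ := (hTε _ h3).2.1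
          _ ≤ 2 * s * ρ := by gcongr
      · rintro ⟨⟨h2, -⟩, ⟨z, hz, hzy⟩⟩
        have hz' : ‖z‖ ≤ r := by simpa using hz
        have h3 : Pi y ∈ T := ⟨z, by simpa using hz'.trans_lt hr, hzy⟩
        refine ⟨⟨h2, h3⟩, ?_⟩
        rw [← hzy, G.left_inv (hmem z (hz'.trans_lt hr))]
        exact hz'
    rw [e]
    exact ContinuousOn.preimage_isClosed_of_isClosed (Pi_cont.mono fun y hy => hy.1) h1 hcomp.isClosed
  · -- linear bound
    rintro y ⟨hy, hyT⟩ hlt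
    obtain ⟨-, h3, h4⟩ := hTε _ hyT
    have hd1 : ‖G.symm (Pi y)‖ < ε₁ / (2 * s) := hlt.trans_le ((min_le_left _ _).trans (min_le_left _ _))
    have hd2 : ‖G.symm (Pi y)‖ < τ / (2 * s * (|C| + 1)) :=
      hlt.trans_le ((min_le_left _ _).trans (min_le_right _ _))
    rw [lt_div_iff₀ (by positivity)] at hd1 hd2
    obtain ⟨h5, h6⟩ := lin y hy (by nlinarith)
    have hn := norm_nonneg (Pi y)
    have hn' := norm_nonneg (G.symm (Pi y))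
    have h7 : ‖Pi (φ y)‖ ≤ |C| * ‖Pi y‖ := h6.trans (by gcongr; exact le_abs_self C)
    have h8 : ‖Pi (φ y)‖ ≤ |C| * (2 * s * ‖G.symm (Pi y)‖) := h7.trans (by gcongr)
    have h9 : Pi (φ y) ∈ T := by
      apply hTτ
      refine h8.trans_lt ?_
      have : 0 ≤ 2 * s * ‖G.symm (Pi y)‖ := by positivity
      nlinarith
    refine ⟨⟨h5, h9⟩, ?_⟩
    obtain ⟨-, -, h10⟩ := hTε _ h9
    have h11 : ‖G.symm (Pi (φ y))‖ ≤ 4 * |C| * ‖G.symm (Pi y)‖ := by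
      have : s * ‖G.symm (Pi (φ y))‖ ≤ s * (4 * |C| * ‖G.symm (Pi y)‖) := by nlinarith
      exact le_of_mul_le_mul_left this hs0
    refine h11.trans ?_
    gcongr
    exact le_max_left _ _
  · -- square bound
    rintro y ⟨hy, hyT⟩ hlt
    obtain ⟨-, h3, h4⟩ := hTε _ hyT
    have hd1 : ‖G.symm (Pi y)‖ < ε₁ / (2 * s) := hlt.trans_le ((min_le_left _ _).trans (min_le_left _ _))
    have hd2 : ‖G.symm (Pi y)‖ < 1 := hlt.trans_le ((min_le_right _ _).trans (min_le_left _ _))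
    have hd3 : ‖G.symm (Pi y)‖ < τ / ((2 * s) ^ 2 * (|C| + 1)) :=
      hlt.trans_le ((min_le_right _ _).trans (min_le_right _ _))
    rw [lt_div_iff₀ (by positivity)] at hd1 hd3
    have hn := norm_nonneg (Pi y)
    have hn' := norm_nonneg (G.symm (Pi y))
    have h6 := sq y hy (by nlinarith)
    have h7 : ‖Pi (φ^[K] y)‖ ≤ |C| * ‖Pi y‖ ^ 2 := h6.trans (by gcongr; exact le_abs_self C)
    have h8 : ‖Pi (φ^[K] y)‖ ≤ |C| * (2 * s * ‖G.symm (Pi y)‖) ^ 2 := h7.trans (by gcongr)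
    have h9 : Pi (φ^[K] y) ∈ T := by
      apply hTτ
      refine h8.trans_lt ?_
      have h10 : ‖G.symm (Pi y)‖ ^ 2 ≤ ‖G.symm (Pi y)‖ := by nlinarith
      have h11 : |C| * (2 * s * ‖G.symm (Pi y)‖) ^ 2 ≤ ‖G.symm (Pi y)‖ * ((2 * s) ^ 2 * (|C| + 1)) := by
        calc |C| * (2 * s * ‖G.symm (Pi y)‖) ^ 2 = |C| * (2 * s) ^ 2 * ‖G.symm (Pi y)‖ ^ 2 := by ring
          _ ≤ |C| * (2 * s) ^ 2 * ‖G.symm (Pi y)‖ := by gcongr
          _ ≤ (|C| + 1) * (2 * s) ^ 2 * ‖G.symm (Pi y)‖ := by gcongr; linarith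
          _ = _ := by ring
      linarith
    obtain ⟨-, -, h10⟩ := hTε _ h9
    have h11 : ‖G.symm (Pi (φ^[K] y))‖ ≤ 8 * s * |C| * ‖G.symm (Pi y)‖ ^ 2 := by
      have : s * ‖G.symm (Pi (φ^[K] y))‖ ≤ s * (8 * s * |C| * ‖G.symm (Pi y)‖ ^ 2) := by
        calc s * ‖G.symm (Pi (φ^[K] y))‖ ≤ 2 * ‖Pi (φ^[K] y)‖ := h10
          _ ≤ 2 * (|C| * (2 * s * ‖G.symm (Pi y)‖) ^ 2) := by gcongr
          _ = s * (8 * s * |C| * ‖G.symm (Pi y)‖ ^ 2) := by ring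
      exact le_of_mul_le_mul_left this hs0
    refine h11.trans ?_
    gcongr
    exact le_max_right _ _
  · -- absorbing
    intro r hr y
    obtain ⟨k, hk1, hk2⟩ := absorb (min τ (s * r / 2)) (by positivity) y
    have h1 : Pi (φ^[k] y) ∈ T := hTτ _ (hk2.trans_le (min_le_left _ _))
    refine ⟨k, ⟨hk1, h1⟩, ?_⟩
    obtain ⟨-, -, h10⟩ := hTε _ h1
    have h2 := hk2.trans_le (min_le_right _ _)
    have : s * ‖G.symm (Pi (φ^[k] y))‖ < s * r := by linarith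
    exact lt_of_mul_lt_mul_left this hs0.le
  · intro y
    obtain ⟨k, hk⟩ := exit y
    exact ⟨k, fun h => hk h.1⟩

end

end Vale.Agent.P267.H581
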