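import Vale.Agent.P267.H581.Cor4
import Vale.Agent.P267.H826.NN

/-! # P267 / COR (helper581), part 5: the Newlander-Nirenberg input is a theorem (H515, H826);
unconditional versions. -/

set_option autoImplicit false

open Set Metric Filter Topology Complex
open scoped NNReal Manifold ContDiff

namespace Vale.Agent.P267.H581

noncomputable section

lemma dz_eq_FL (k : Fin 2) (f : V → ℂ) (x : V) : FL.dz k f x = dz k f x := by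
  simp only [FL.dz, dz, e1, eI, smul_eq_mul]

lemma dzb_eq_FL (k : Fin 2) (f : V → ℂ) (x : V) : FL.dzb k f x = dzb k f x := by
  simp only [FL.dzb, dzb, e1, eI, smul_eq_mul]

theorem nnStatement : NNStatement := by
  obtain ⟨η, hη, h⟩ := H826.nn (δ := 1/4) (by norm_num) (by norm_num)
  refine ⟨η, hη, fun B hB hBη hint => ?_⟩
  have hproj : ∀ i j, (fun y => B y i j) =
      ((ContinuousLinearMap.proj (R := ℝ) (φ := fun _ : Fin 2 => ℂ) j).comp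
        (ContinuousLinearMap.proj (R := ℝ) (φ := fun _ : Fin 2 => Fin 2 → ℂ) i)) ∘ B := by
    intro i j; rfl
  have hn : ∀ i j : Fin 2, ‖((ContinuousLinearMap.proj (R := ℝ) (φ := fun _ : Fin 2 => ℂ) j).comp
        (ContinuousLinearMap.proj (R := ℝ) (φ := fun _ : Fin 2 => Fin 2 → ℂ) i))‖ ≤ 1 := by
    intro i j
    refine ContinuousLinearMap.opNorm_le_bound _ zero_le_one (fun u => ?_)
    rw [one_mul]
    exact (norm_le_pi_norm (u i) j).trans (norm_le_pi_norm u i)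
  obtain ⟨w, hw1, hw2, hw3, hw4⟩ := h (fun i j y => B y i j)
    (fun i j => by
      rw [hproj i j]
      exact (ContinuousLinearMap.contDiff _).comp (hB.of_le (by norm_num)))
    (fun i j k hk x => by
      rw [hproj i j]
      have h1 := ContinuousLinearMap.norm_iteratedFDeriv_comp_left
        ((ContinuousLinearMap.proj (R := ℝ) (φ := fun _ : Fin 2 => ℂ) j).comp
        (ContinuousLinearMap.proj (R := ℝ) (φ := fun _ : Fin 2 => Fin 2 → ℂ) i))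
        (f := B) (x := x) (N := 5) (n := k) hB.contDiffAt (by exact_mod_cast (by omega : k ≤ 5))
      refine h1.trans ?_
      calc _ ≤ 1 * η := by
            gcongr
            · exact hn i j
            · exact hBη k (by omega) x
        _ = η := one_mul _)
    (by
      intro x hx j
      rw [mem_ball_zero_iff] at hx
      have := hint x hx j
      simpa only [Lop, dz_eq_FL, dzb_eq_FL] using this)
  refine ⟨w, fun z hz => ⟨?_, hw2 z hz.le, hw3 z hz.le, fun k j => ?_⟩⟩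
  · exact (hw1.differentiable (by norm_num)) z
  · have := hw4 z hz.le k j
    simpa only [dz_eq_FL, dzb_eq_FL] using this

/-- **Holomorphic reparametrisation of a punctured ball**, unconditional. -/
theorem exists_holo_param' {Y : Type*} [TopologicalSpace Y] [ChartedSpace V Y]
    [IsManifold 𝓘(ℂ, V) 1 Y] {Θ : V → Y} {A : V → Fin 2 → Fin 2 → ℂ} {ε : ℝ}
    (hε : 0 < ε) (hs : IsStr Θ A ε) (hA : ContDiffOn ℝ 5 A (ball 0 ε \ {0}))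
    (hflat : ∀ j ≤ 5, Tendsto (fun x => ‖iteratedFDeriv ℝ j A x‖) (𝓝[≠] 0) (𝓝 0)) :
    ∃ (G : OpenPartialHomeomorph V V) (s : ℝ), 0 < s ∧ s * 5 ≤ ε ∧ ball 0 (1/4) ⊆ G.source ∧
      G 0 = 0 ∧ (∀ z, ‖z‖ < 1/4 → ‖G z‖ ≤ 2 * s * ‖z‖ ∧ s * ‖z‖ ≤ 2 * ‖G z‖) ∧
      (∀ z, z ≠ 0 → ‖z‖ < 1/4 → MDifferentiableAt 𝓘(ℂ, V) 𝓘(ℂ, V) (fun z => Θ (G z)) z ∧
        Function.Injective (mfderiv 𝓘(ℂ, V) 𝓘(ℂ, V) (fun z => Θ (G z)) z)) :=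
  exists_holo_param nnStatement hε hs hA hflat

/-- **Flat smooth coordinates at a contracting end give a global spherical shell**, unconditional. -/
theorem hasGSS_of_flat'
    {X Y : Type*} [TopologicalSpace X] [ChartedSpace V X]
    [TopologicalSpace Y] [ChartedSpace V Y] [IsManifold 𝓘(ℂ, V) 1 Y]
    (p : Y → X) (p_surj : Function.Surjective p) (p_holo : MDifferentiable 𝓘(ℂ, V) 𝓘(ℂ, V) p)
    (p_sec : ∀ y, ∃ s : X → Y, s (p y) = y ∧ (∀ᶠ x in 𝓝 (p y), p (s x) = x) ∧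
      MDifferentiableAt 𝓘(ℂ, V) 𝓘(ℂ, V) s (p y))
    (φ : Y ≃ₜ Y) (φ_holo : MDifferentiable 𝓘(ℂ, V) 𝓘(ℂ, V) φ)
    (p_eq : ∀ y y', p y = p y' ↔ ∃ k : ℕ, φ^[k] y = y' ∨ φ^[k] y' = y)
    (Ω : Set Y) (Ω_open : IsOpen Ω) (Pi : Y → V) (Θ : V → Y) (A : V → Fin 2 → Fin 2 → ℂ)
    (ε : ℝ) (ε_pos : 0 < ε)
    (Pi_cont : ContinuousOn Pi Ω)
    (Pi_zero : ∀ y ∈ Ω, Pi y = 0 → ∃ g : Y → ℂ,
      (∀ᶠ z in 𝓝 y, MDifferentiableAt 𝓘(ℂ, V) 𝓘(ℂ) g z) ∧ (∃ᶠ z in 𝓝 y, g z ≠ 0) ∧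
      ∀ᶠ z in 𝓝 y, Pi z = 0 → g z = 0)
    (hs : IsStr Θ A ε) (hA : ContDiffOn ℝ 5 A (ball 0 ε \ {0}))
    (hflat : ∀ j ≤ 5, Tendsto (fun x => ‖iteratedFDeriv ℝ j A x‖) (𝓝[≠] 0) (𝓝 0))
    (Θ_mem : ∀ x, x ≠ 0 → ‖x‖ < ε → Θ x ∈ Ω) (Pi_Θ : ∀ x, x ≠ 0 → ‖x‖ < ε → Pi (Θ x) = x)
    (Θ_Pi : ∀ y ∈ Ω, Pi y ≠ 0 → ‖Pi y‖ < ε → Θ (Pi y) = y)
    (closed : ∀ r < ε, IsClosed {y | y ∈ Ω ∧ ‖Pi y‖ ≤ r})
    (ε₁ : ℝ) (ε₁_pos : 0 < ε₁) (C : ℝ) (K : ℕ)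
    (lin : ∀ y ∈ Ω, ‖Pi y‖ < ε₁ → φ y ∈ Ω ∧ ‖Pi (φ y)‖ ≤ C * ‖Pi y‖)
    (sq : ∀ y ∈ Ω, ‖Pi y‖ < ε₁ → ‖Pi (φ^[K] y)‖ ≤ C * ‖Pi y‖ ^ 2)
    (absorb : ∀ r : ℝ, 0 < r → ∀ y, ∃ k : ℕ, φ^[k] y ∈ Ω ∧ ‖Pi (φ^[k] y)‖ < r)
    (exit : ∀ y, ∃ k : ℕ, φ.symm^[k] y ∉ Ω) : HasGSS X :=
  hasGSS_of_flat nnStatement p p_surj p_holo p_sec φ φ_holo p_eq Ω Ω_open Pi Θ A ε ε_pos Pi_cont
    Pi_zero hs hA hflat Θ_mem Pi_Θ Θ_Pi closed ε₁ ε₁_pos C K lin sq absorb exit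

end

end Vale.Agent.P267.H581
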