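import Vale.Agent.P267.H498.Kato1

/-!
# P267 / route S (helper581): germ-to-shell theorem with coordinates on a thin shell only

The proof of the core is the one of helper498 (H498/Kato1); the hypotheses are weaker.
-/

open scoped Manifold ContDiff Topology
open Vale.Agent.P272.K Set Filter
open Vale.Agent.P267.H498

namespace Vale.Agent.P267.H581

noncomputable section

section Core

variable {X M : Type*} [TopologicalSpace X] [ChartedSpace (Cm 2) X]
  [TopologicalSpace M] [ChartedSpace (Cm 2) M] [ConnectedSpace M]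

/-- **Thin shell version of the core of G-KATO** (after helper498): the coordinates `φ` are only
continuous on `U`, and have a holomorphic inverse `ψ` only over the closed shell `ρ₁ ≤ |z| ≤ ρ₂`. -/
theorem hasGSS_shell
    (p : M → X) (g : M ≃ₜ M) (f : M → ℝ)
    (hp : MDifferentiable 𝓘(ℂ, Cm 2) 𝓘(ℂ, Cm 2) p) (hps : Function.Surjective p)
    (hpo : IsOpenMap p)
    (hpq : ∀ x, ∃ q : X → M, MDifferentiableAt 𝓘(ℂ, Cm 2) 𝓘(ℂ, Cm 2) q (p x) ∧ q (p x) = x ∧
      ∀ᶠ y in 𝓝 (p x), p (q y) = y)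
    (hpg : ∀ x y, p x = p y ↔ ∃ k : ℤ, (g ^ k) x = y)
    (hfg : ∀ x, f (g x) = f x - 1)
    {U : Set M} (hU : IsOpen U) {φ : M → Cm 2} {ψ : Cm 2 → M} {ρ₁ ρ₂ : ℝ}
    (h10 : 0 < ρ₁) (h12 : ρ₁ < ρ₂)
    (hφc : ContinuousOn φ U)
    (hφ : ∀ x ∈ U, ρ₁ < en (φ x) → en (φ x) < ρ₂ → MDifferentiableAt 𝓘(ℂ, Cm 2) 𝓘(ℂ, Cm 2) φ x)
    (hψ : ∀ z, ρ₁ ≤ en z → en z ≤ ρ₂ → MDifferentiableAt 𝓘(ℂ, Cm 2) 𝓘(ℂ, Cm 2) ψ z)
    (hψU : ∀ z, ρ₁ ≤ en z → en z ≤ ρ₂ → ψ z ∈ U ∧ φ (ψ z) = z)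
    (hψφ : ∀ x ∈ U, ρ₁ ≤ en (φ x) → en (φ x) ≤ ρ₂ → ψ (φ x) = x)
    (hcl₁ : IsClosed {x | x ∈ U ∧ en (φ x) ≤ ρ₁}) (hcl₂ : IsClosed {x | x ∈ U ∧ en (φ x) ≤ ρ₂})
    (hin : ∃ R, ∀ x, f x ≤ R → x ∈ U ∧ en (φ x) < ρ₂)
    (hout : ∃ R, ∀ x ∈ U, f x ≤ R)
    {c : ℝ} (hc0 : 0 ≤ c) (hc1 : c < 1) (hc21 : c * ρ₂ < ρ₁)
    (hcon : ∀ x ∈ U, en (φ x) ≤ ρ₂ → g x ∈ U ∧ en (φ (g x)) ≤ c * en (φ x)) :
    HasGSS X := by
  -- constants
  have h20 : 0 < ρ₂ := h10.trans h12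
  set ρ : ℝ := (ρ₁ + ρ₂) / 2 with hρ
  have hρ0 : 0 < ρ := by rw [hρ]; linarith
  set δ : ℝ := (ρ₂ - ρ₁) / (ρ₁ + ρ₂) with hδ
  have hδ0 : 0 < δ := by rw [hδ]; apply div_pos <;> linarith
  have hδ1 : δ < 1 := by rw [hδ, div_lt_one (by linarith)]; linarith
  have hρ₁ : ρ₁ = ρ * (1 - δ) := by
    have : ρ₁ + ρ₂ ≠ 0 := by linarith
    rw [hρ, hδ]; field_simp; ring
  have hρ₂ : ρ₂ = ρ * (1 + δ) := by
    have : ρ₁ + ρ₂ ≠ 0 := by linarith
    rw [hρ, hδ]; field_simp; ring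
  have heφ : ContinuousOn (fun x => en (φ x)) U := continuous_en.comp_continuousOn hφc
  -- sublevel sets
  set W : ℝ → Set M := fun s => {x | x ∈ U ∧ en (φ x) < s} with hW
  set Wc : ℝ → Set M := fun s => {x | x ∈ U ∧ en (φ x) ≤ s} with hWc
  have hWo : ∀ s, IsOpen (W s) := by
    intro s
    have := heφ.isOpen_inter_preimage hU (isOpen_Iio (a := s))
    exact this
  have hWmono : ∀ s t, s ≤ t → W s ⊆ W t := fun s t h x hx => ⟨hx.1, lt_of_lt_of_le hx.2 h⟩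
  -- powers
  have hfk : ∀ (k : ℕ) x, f ((g ^ k) x) = f x - k := by
    intro k
    induction k with
    | zero => intro x; simp
    | succ n ih =>
      intro x
      have e : (g ^ (n + 1)) x = (g ^ n) (g x) := by rw [pow_succ]; rfl
      rw [e, ih, hfg]; push_cast; ring
  have hfz : ∀ (k : ℤ) x, f ((g ^ k) x) = f x - k := by
    intro k x
    obtain ⟨n, rfl | rfl⟩ := k.eq_nat_or_neg
    · rw [zpow_natCast, hfk]; simp
    · have h := hfk n ((g ^ (-(n : ℤ))) x)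
      have e : (g ^ n) ((g ^ (-(n : ℤ))) x) = x := by
        have : (g ^ n * g ^ (-(n : ℤ))) x = x := by
          rw [← zpow_natCast, ← zpow_add]; simp
        exact this
      rw [e] at h
      push_cast
      linarith
  have hgW : ∀ (k : ℕ), 1 ≤ k → ∀ x ∈ Wc ρ₂, (g ^ k) x ∈ U ∧ en (φ ((g ^ k) x)) ≤ c * en (φ x) := by
    intro k hk
    induction k, hk using Nat.le_induction with
    | base =>
      intro x hx
      simpa using hcon x hx.1 hx.2
    | succ n hn ih =>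
      intro x hx
      obtain ⟨h1, h2⟩ := ih x hx
      have h3 : en (φ ((g ^ n) x)) ≤ en (φ x) :=
        h2.trans (mul_le_of_le_one_left (en_nonneg _) hc1.le)
      have h4 : en (φ ((g ^ n) x)) ≤ ρ₂ := h3.trans hx.2
      obtain ⟨h5, h6⟩ := hcon _ h1 h4
      have e : (g ^ (n + 1)) x = g ((g ^ n) x) := by rw [pow_succ']; rfl
      rw [e]
      exact ⟨h5, h6.trans (mul_le_mul_of_nonneg_left h3 hc0)⟩
  -- spheres
  set S1 : Set M := {x | x ∈ U ∧ en (φ x) = ρ₁} with hS1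
  set S2 : Set M := {x | x ∈ U ∧ en (φ x) = ρ₂} with hS2
  have hsph : ∀ s, ρ₁ ≤ s → s ≤ ρ₂ → IsConnected {x | x ∈ U ∧ en (φ x) = s} := by
    intro s hs hsr
    have e : {x | x ∈ U ∧ en (φ x) = s} = ψ '' {z | en z = s} := by
      ext x
      constructor
      · rintro ⟨h1, h2⟩
        exact ⟨φ x, h2, hψφ x h1 (by rw [h2]; exact hs) (by rw [h2]; exact hsr)⟩
      · rintro ⟨z, hz, rfl⟩
        have hz' : en z = s := hz
        obtain ⟨h1, h2⟩ := hψU z (by rw [hz']; exact hs) (by rw [hz']; exact hsr)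
        exact ⟨h1, by rw [h2]; exact hz⟩
    rw [e]
    apply (isConnected_en_sphere (h10.le.trans hs)).image
    intro z hz
    have hz' : en z = s := hz
    exact (hψ z (by rw [hz']; exact hs) (by rw [hz']; exact hsr)).continuousAt.continuousWithinAt
  have hS1c : IsConnected S1 := hsph ρ₁ le_rfl h12.le
  have hS2c : IsConnected (g '' S2) := (hsph ρ₂ h12.le le_rfl).image _ g.continuous.continuousOn
  -- the complementary region
  set A : Set M := Wc ρ₁ \ (g '' W ρ₂) with hA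
  have hgWo : IsOpen (g '' W ρ₂) := g.isOpenMap _ (hWo ρ₂)
  have hgWcc : IsClosed (g '' Wc ρ₂) := g.isClosedMap _ hcl₂
  have hAcl : IsClosed A := hcl₁.sdiff hgWo
  have hgsub : g '' Wc ρ₂ ⊆ W ρ₁ := by
    rintro _ ⟨x, hx, rfl⟩
    obtain ⟨h1, h2⟩ := hcon x hx.1 hx.2
    exact ⟨h1, lt_of_le_of_lt (h2.trans (mul_le_mul_of_nonneg_left hx.2 hc0)) hc21⟩
  have hS1A : S1 ⊆ A := by
    intro x hx
    refine ⟨⟨hx.1, hx.2.le⟩, ?_⟩
    rintro ⟨y, hy, rfl⟩
    have := (hgsub ⟨y, ⟨hy.1, hy.2.le⟩, rfl⟩).2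
    have h2 := hx.2
    linarith
  have hS2A : g '' S2 ⊆ A := by
    rintro _ ⟨x, hx, rfl⟩
    have h1 := hgsub ⟨x, ⟨hx.1, hx.2.le⟩, rfl⟩
    refine ⟨⟨h1.1, h1.2.le⟩, ?_⟩
    rintro ⟨y, hy, hyx⟩
    have : y = x := g.injective hyx
    subst this
    have h2 := hy.2
    have h3 := hx.2
    linarith
  have hApre : IsPreconnected A := by
    -- one-sided statement
    have key : ∀ P Q : Set M, IsClosed P → IsClosed Q → A ⊆ P ∪ Q → (A ∩ Q).Nonempty →
        S1 ⊆ A ∩ P → A ∩ (P ∩ Q) = ∅ → False := by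
      intro P Q hP hQ hAPQ hAQ hSP hemp
      have hP' : IsClosed (A ∩ P) := hAcl.inter hP
      have hQ' : IsClosed (A ∩ Q) := hAcl.inter hQ
      have hdisj : ∀ x, x ∈ A ∩ P → x ∈ A ∩ Q → False := by
        intro x h1 h2
        have : x ∈ A ∩ (P ∩ Q) := ⟨h1.1, h1.2, h2.2⟩
        rw [hemp] at this
        exact this
      have hcases : g '' S2 ⊆ A ∩ P ∨ g '' S2 ⊆ A ∩ Q := by
        have hpc := hS2c.isPreconnected
        rw [isPreconnected_closed_iff] at hpc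
        by_contra hno
        rw [not_or] at hno
        obtain ⟨hn1, hn2⟩ := hno
        obtain ⟨x, hx, hxP⟩ := not_subset.1 hn1
        obtain ⟨y, hy, hyQ⟩ := not_subset.1 hn2
        have hxQ : x ∈ A ∩ Q := by
          rcases hAPQ (hS2A hx) with h | h
          · exact absurd ⟨hS2A hx, h⟩ hxP
          · exact ⟨hS2A hx, h⟩
        have hyP : y ∈ A ∩ P := by
          rcases hAPQ (hS2A hy) with h | h
          · exact ⟨hS2A hy, h⟩
          · exact absurd ⟨hS2A hy, h⟩ hyQ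
        obtain ⟨w, hw, hw2⟩ := hpc (A ∩ P) (A ∩ Q) hP' hQ' (fun z hz => by
          rcases hAPQ (hS2A hz) with h | h
          · exact Or.inl ⟨hS2A hz, h⟩
          · exact Or.inr ⟨hS2A hz, h⟩) ⟨y, hy, hyP⟩ ⟨x, hx, hxQ⟩
        exact hdisj w hw2.1 hw2.2
      rcases hcases with hcase | hcase
      · -- both spheres in P: Q' is clopen
        have hopen : IsOpen (A ∩ Q) := by
          have e : A ∩ Q = (W ρ₁ \ g '' Wc ρ₂) ∩ (A ∩ P)ᶜ := by
            ext x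
            constructor
            · intro hx
              refine ⟨⟨⟨hx.1.1.1, lt_of_le_of_ne hx.1.1.2 fun h => ?_⟩, ?_⟩, fun h => hdisj x h hx⟩
              · exact hdisj x (hSP ⟨hx.1.1.1, h⟩) hx
              · rintro ⟨y, hy, rfl⟩
                rcases lt_or_eq_of_le hy.2 with h | h
                · exact hx.1.2 ⟨y, ⟨hy.1, h⟩, rfl⟩
                · exact hdisj _ (hcase ⟨y, ⟨hy.1, h⟩, rfl⟩) hx
            · rintro ⟨⟨h1, h2⟩, h3⟩
              have hxA : x ∈ A := by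
                refine ⟨⟨h1.1, h1.2.le⟩, ?_⟩
                rintro ⟨y, hy, rfl⟩
                exact h2 ⟨y, ⟨hy.1, hy.2.le⟩, rfl⟩
              rcases hAPQ hxA with h | h
              · exact absurd ⟨hxA, h⟩ h3
              · exact ⟨hxA, h⟩
          rw [e]
          exact ((hWo ρ₁).sdiff hgWcc).inter hP'.isOpen_compl
        have hclopen : IsClopen (A ∩ Q) := ⟨hQ', hopen⟩
        rcases isClopen_iff.1 hclopen with h | h
        · rw [h] at hAQ; exact not_nonempty_empty hAQ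
        · obtain ⟨x, hx⟩ := hS1c.nonempty
          exact hdisj x (hSP hx) (by rw [h]; trivial)
      · -- the inner sphere in Q
        set T : Set M := (A ∩ P) ∪ (W ρ₁)ᶜ with hT
        have hTcl : IsClosed T := hP'.union (hWo ρ₁).isClosed_compl
        have hTc : Tᶜ = g '' Wc ρ₂ ∪ (A ∩ Q) := by
          ext x
          constructor
          · intro hx
            have h1 : x ∉ A ∩ P := fun h => hx (Or.inl h)
            have h2 : x ∈ W ρ₁ := by
              by_contra h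
              exact hx (Or.inr h)
            by_cases hxg : x ∈ g '' W ρ₂
            · obtain ⟨y, hy, rfl⟩ := hxg
              exact Or.inl ⟨y, ⟨hy.1, hy.2.le⟩, rfl⟩
            · have hxA : x ∈ A := ⟨⟨h2.1, h2.2.le⟩, hxg⟩
              rcases hAPQ hxA with h | h
              · exact absurd ⟨hxA, h⟩ h1
              · exact Or.inr ⟨hxA, h⟩
          · rintro (hx | hx) hxT
            · rcases hxT with h | h
              · obtain ⟨y, hy, rfl⟩ := hx
                rcases lt_or_eq_of_le hy.2 with h' | h'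
                · exact h.1.2 ⟨y, ⟨hy.1, h'⟩, rfl⟩
                · exact hdisj _ h (hcase ⟨y, ⟨hy.1, h'⟩, rfl⟩)
              · exact h (hgsub hx)
            · rcases hxT with h | h
              · exact hdisj x h hx
              · apply h
                refine ⟨hx.1.1.1, lt_of_le_of_ne hx.1.1.2 fun h' => ?_⟩
                exact hdisj x (hSP ⟨hx.1.1.1, h'⟩) hx
        have hTo : IsOpen T := by
          rw [← isClosed_compl_iff, hTc]
          exact hgWcc.union hQ'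
        rcases isClopen_iff.1 (⟨hTcl, hTo⟩ : IsClopen T) with h | h
        · obtain ⟨x, hx⟩ := hS1c.nonempty
          have : x ∈ T := Or.inl (hSP hx)
          rw [h] at this
          exact this
        · obtain ⟨x, hx⟩ := hAQ
          have h3 : x ∈ Tᶜ := by rw [hTc]; exact Or.inr hx
          rw [h] at h3
          exact h3 trivial
    rw [isPreconnected_closed_iff]
    intro P Q hP hQ hAPQ hAP hAQ
    by_contra hne
    rw [not_nonempty_iff_eq_empty] at hne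
    have hpc := hS1c.isPreconnected
    rw [isPreconnected_closed_iff] at hpc
    by_cases h1 : (S1 ∩ P).Nonempty
    · by_cases h2 : (S1 ∩ Q).Nonempty
      · obtain ⟨x, hx, hx2⟩ := hpc P Q hP hQ (hS1A.trans hAPQ) h1 h2
        have : x ∈ A ∩ (P ∩ Q) := ⟨hS1A hx, hx2⟩
        rw [hne] at this
        exact this
      · apply key P Q hP hQ hAPQ hAQ _ hne
        intro x hx
        refine ⟨hS1A hx, ?_⟩
        rcases hAPQ (hS1A hx) with h | h
        · exact h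
        · exact absurd ⟨x, hx, h⟩ h2
    · apply key Q P hQ hP (by rwa [union_comm]) hAP _ (by rwa [inter_comm Q P])
      intro x hx
      refine ⟨hS1A hx, ?_⟩
      rcases hAPQ (hS1A hx) with h | h
      · exact absurd ⟨x, hx, h⟩ h1
      · exact h
  have hAconn : IsConnected A := ⟨hS1c.nonempty.mono hS1A, hApre⟩
  -- the shell
  set Sh : Set M := {x | x ∈ U ∧ ρ₁ < en (φ x) ∧ en (φ x) < ρ₂} with hSh
  have hSho : IsOpen Sh := by
    have := heφ.isOpen_inter_preimage hU (isOpen_Ioo (a := ρ₁) (b := ρ₂))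
    exact this
  -- fundamental domain
  have hfund : ∀ x : M, ∃ k : ℤ, (g ^ k) x ∈ Sh ∪ A := by
    intro x
    obtain ⟨R₁, hR₁⟩ := hin
    obtain ⟨R₂, hR₂⟩ := hout
    have hex : ∃ k : ℤ, (g ^ k) x ∈ W ρ₂ := by
      obtain ⟨n, hn⟩ := exists_nat_ge (f x - R₁)
      refine ⟨n, hR₁ _ ?_⟩
      rw [hfz]; push_cast; linarith
    have hbdd : ∀ k : ℤ, (g ^ k) x ∈ W ρ₂ → ⌊f x - R₂⌋ ≤ k := by
      intro k hk
      have := hR₂ _ hk.1
      rw [hfz] at this
      have h1 : (⌊f x - R₂⌋ : ℝ) ≤ f x - R₂ := Int.floor_le _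
      have : (⌊f x - R₂⌋ : ℝ) ≤ (k : ℝ) := by linarith
      exact_mod_cast this
    obtain ⟨k, hk, hmin⟩ := Int.exists_least_of_bdd ⟨_, hbdd⟩ hex
    refine ⟨k, ?_⟩
    have hnot : (g ^ k) x ∉ g '' W ρ₂ := by
      rintro ⟨y, hy, hyk⟩
      have e : (g ^ (k - 1)) x = y := by
        apply g.injective
        rw [hyk]
        have : g ((g ^ (k - 1)) x) = (g * g ^ (k - 1)) x := rfl
        rw [this]
        have e2 : g * g ^ (k - 1) = g ^ k := by
          rw [← zpow_one_add]; congr 1; ring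
        rw [e2]
      have := hmin (k - 1) (by rw [e]; exact hy)
      omega
    by_cases h1 : en (φ ((g ^ k) x)) ≤ ρ₁
    · right
      exact ⟨⟨hk.1, h1⟩, hnot⟩
    · left
      rw [not_le] at h1
      exact ⟨hk.1, h1, hk.2⟩
  have hkey : ∀ x y : M, x ∈ Sh → y ∈ W ρ₂ → y ∉ g '' W ρ₂ → p x = p y → x = y := by
    intro x y hx hy hyg hxy
    obtain ⟨k, hk⟩ := (hpg x y).1 hxy
    obtain ⟨n, rfl | rfl⟩ := k.eq_nat_or_neg
    · rw [zpow_natCast] at hk
      rcases Nat.eq_zero_or_pos n with rfl | hn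
      · simpa using hk
      · exfalso
        apply hyg
        -- y = g^n x = g (g^(n-1) x)
        obtain ⟨m, rfl⟩ : ∃ m, n = m + 1 := ⟨n - 1, by omega⟩
        refine ⟨(g ^ m) x, ?_, ?_⟩
        · rcases Nat.eq_zero_or_pos m with rfl | hm
          · rw [pow_zero]
            exact ⟨hx.1, hx.2.2⟩
          · obtain ⟨h1, h2⟩ := hgW m hm x ⟨hx.1, hx.2.2.le⟩
            refine ⟨h1, lt_of_le_of_lt h2 ?_⟩
            exact lt_of_le_of_lt (mul_le_of_le_one_left (en_nonneg _) hc1.le) hx.2.2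
        · rw [← hk, pow_succ']; rfl
    · rcases Nat.eq_zero_or_pos n with rfl | hn
      · simpa using hk
      · exfalso
        have hx2 : (g ^ n) y = x := by
          rw [← hk]
          have : (g ^ n * g ^ (-(n : ℤ))) x = x := by
            rw [← zpow_natCast, ← zpow_add]; simp
          exact this
        obtain ⟨h1, h2⟩ := hgW n hn y ⟨hy.1, hy.2.le⟩
        rw [hx2] at h2
        have h3 := hx.2.1
        have h4 : c * en (φ y) ≤ c * ρ₂ := mul_le_mul_of_nonneg_left hy.2.le hc0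
        linarith
  have hShg : ∀ x ∈ Sh, x ∉ g '' W ρ₂ := by
    rintro x hx ⟨y, hy, rfl⟩
    have h1 := (hgsub ⟨y, ⟨hy.1, hy.2.le⟩, rfl⟩).2
    have := hx.2.1
    linarith
  have hcompl : (p '' Sh)ᶜ = p '' A := by
    ext y
    constructor
    · intro hy
      obtain ⟨x, rfl⟩ := hps y
      obtain ⟨k, hk⟩ := hfund x
      have e : p ((g ^ k) x) = p x := ((hpg x _).2 ⟨k, rfl⟩).symm
      rcases hk with h | h
      · exact absurd ⟨_, h, e⟩ hy
      · exact ⟨_, h, e⟩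
    · rintro ⟨x, hx, rfl⟩ ⟨y, hy, hxy⟩
      have : y = x := hkey y x hy ⟨hx.1.1, lt_of_le_of_lt hx.1.2 h12⟩ hx.2 hxy
      subst this
      have h1 := hx.1.2
      have h2 := hy.2.1
      linarith
  -- the shell map
  set UU : Set (Cm 2) := {z | 1 - δ < en z ∧ en z < 1 + δ} with hUU
  have hsc : ∀ z : Cm 2, en ((ρ : ℂ) • z) = ρ * en z := by
    intro z
    rw [en_smul, Complex.norm_real, Real.norm_of_nonneg hρ0.le]
  have hUUr : ∀ z ∈ UU, ρ₁ < en ((ρ : ℂ) • z) ∧ en ((ρ : ℂ) • z) < ρ₂ := by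
    intro z hz
    rw [hsc, hρ₁, hρ₂]
    exact ⟨mul_lt_mul_of_pos_left hz.1 hρ0, mul_lt_mul_of_pos_left hz.2 hρ0⟩
  set FF : Cm 2 → X := fun z => p (ψ ((ρ : ℂ) • z)) with hFF
  have hψSh : ∀ z ∈ UU, ψ ((ρ : ℂ) • z) ∈ Sh ∧ φ (ψ ((ρ : ℂ) • z)) = (ρ : ℂ) • z := by
    intro z hz
    obtain ⟨h1, h2⟩ := hUUr z hz
    obtain ⟨h3, h4⟩ := hψU _ h1.le h2.le
    exact ⟨⟨h3, by rw [h4]; exact h1, by rw [h4]; exact h2⟩, h4⟩
  have hρC : (ρ : ℂ) ≠ 0 := by exact_mod_cast hρ0.ne'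
  have hShψ : ∀ x ∈ Sh, (ρ : ℂ)⁻¹ • φ x ∈ UU ∧ ψ ((ρ : ℂ) • ((ρ : ℂ)⁻¹ • φ x)) = x := by
    intro x hx
    have e : (ρ : ℂ) • ((ρ : ℂ)⁻¹ • φ x) = φ x := by
      rw [smul_smul, mul_inv_cancel₀ hρC, one_smul]
    refine ⟨?_, ?_⟩
    · have h1 := hsc ((ρ : ℂ)⁻¹ • φ x)
      rw [e] at h1
      have h2 := hx.2.1
      have h3 := hx.2.2
      rw [h1, hρ₁] at h2
      rw [h1, hρ₂] at h3
      exact ⟨lt_of_mul_lt_mul_left h2 hρ0.le, lt_of_mul_lt_mul_left h3 hρ0.le⟩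
    · rw [e]
      exact hψφ x hx.1 hx.2.1.le hx.2.2.le
  have hFimg : FF '' UU = p '' Sh := by
    ext y
    constructor
    · rintro ⟨z, hz, rfl⟩
      exact ⟨_, (hψSh z hz).1, rfl⟩
    · rintro ⟨x, hx, rfl⟩
      exact ⟨_, (hShψ x hx).1, congrArg p (hShψ x hx).2⟩
  have hFinj : ∀ z ∈ UU, ∀ w ∈ UU, FF z = FF w → z = w := by
    intro z hz w hw h
    have h1 := hψSh z hz
    have h2 := hψSh w hw
    have h3 : ψ ((ρ : ℂ) • z) = ψ ((ρ : ℂ) • w) :=
      hkey _ _ h1.1 ⟨h2.1.1, h2.1.2.2⟩ (hShg _ h2.1) h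
    have h4 : (ρ : ℂ) • z = (ρ : ℂ) • w := by rw [← h1.2, ← h2.2, h3]
    exact smul_right_injective _ hρC h4
  classical
  have hUUne : UU.Nonempty := by
    obtain ⟨z, hz⟩ := (isConnected_en_sphere (ρ := 1) zero_le_one).nonempty
    have hz' : en z = 1 := hz
    exact ⟨z, by rw [hz']; linarith, by rw [hz']; linarith⟩
  have : Nonempty (Cm 2) := ⟨0⟩
  set GG : X → Cm 2 := fun y => if h : ∃ z ∈ UU, FF z = y then h.choose else 0 with hGG
  have hGGspec : ∀ z ∈ UU, GG (FF z) = z := by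
    intro z hz
    have h : ∃ w ∈ UU, FF w = FF z := ⟨z, hz, rfl⟩
    have h1 : GG (FF z) = h.choose := by
      simp only [hGG]
      rw [dif_pos h]
    rw [h1]
    exact hFinj _ h.choose_spec.1 _ hz h.choose_spec.2
  have hUUo : IsOpen UU := isOpen_Ioo.preimage continuous_en
  refine ⟨UU, FF, GG, hUUo, ?_, ?_, ?_, ?_, ?_, hGGspec, ?_⟩
  · intro h
    have h1 : 1 - δ < en (0 : Cm 2) := h.1
    rw [en_zero] at h1
    linarith
  · intro z hz
    have h1 : en z = 1 := by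
      unfold en
      have : ‖z 0‖ ^ 2 + ‖z 1‖ ^ 2 = 1 := hz
      rw [this, Real.sqrt_one]
    show 1 - δ < en z ∧ en z < 1 + δ
    rw [h1]
    constructor <;> linarith
  · rw [hFimg]
    exact hpo _ hSho
  · -- holomorphy of FF
    intro z hz
    obtain ⟨h1, h2⟩ := hUUr z hz
    have d1 : MDifferentiableAt 𝓘(ℂ, Cm 2) 𝓘(ℂ, Cm 2) ψ ((ρ : ℂ) • z) := hψ _ h1.le h2.le
    have d2 : MDifferentiableAt 𝓘(ℂ, Cm 2) 𝓘(ℂ, Cm 2) (fun z : Cm 2 => (ρ : ℂ) • z) z := by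
      rw [mdifferentiableAt_iff_differentiableAt]
      exact (differentiable_id.const_smul (ρ : ℂ)) z
    exact ((hp _).comp z (d1.comp z d2)).mdifferentiableWithinAt
  · -- holomorphy of GG
    rintro _ ⟨z, hz, rfl⟩
    apply MDifferentiableAt.mdifferentiableWithinAt
    obtain ⟨hzS, hzφ⟩ := hψSh z hz
    obtain ⟨q, hq1, hq2, hq3⟩ := hpq (ψ ((ρ : ℂ) • z))
    have hqc : ContinuousAt q (p (ψ ((ρ : ℂ) • z))) := hq1.continuousAt
    have hev : ∀ᶠ y in 𝓝 (FF z), GG y = (ρ : ℂ)⁻¹ • φ (q y) := by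
      have h1 : ∀ᶠ y in 𝓝 (FF z), q y ∈ Sh := by
        apply hqc.eventually_mem
        rw [hq2]
        exact hSho.mem_nhds hzS
      filter_upwards [h1, hq3] with y hy1 hy2
      obtain ⟨h3, h4⟩ := hShψ _ hy1
      have h5 : FF ((ρ : ℂ)⁻¹ • φ (q y)) = y := by
        simp only [hFF]
        rw [h4, hy2]
      conv_lhs => rw [← h5]
      exact hGGspec _ h3
    have d1 : MDifferentiableAt 𝓘(ℂ, Cm 2) 𝓘(ℂ, Cm 2) φ (q (FF z)) := by
      have : q (FF z) = ψ ((ρ : ℂ) • z) := hq2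
      rw [this]
      exact hφ _ hzS.1 hzS.2.1 hzS.2.2
    have d2 : MDifferentiableAt 𝓘(ℂ, Cm 2) 𝓘(ℂ, Cm 2) (fun y => φ (q y)) (FF z) :=
      d1.comp (FF z) hq1
    have d3 : MDifferentiableAt 𝓘(ℂ, Cm 2) 𝓘(ℂ, Cm 2) (fun z : Cm 2 => (ρ : ℂ)⁻¹ • z)
        (φ (q (FF z))) := by
      rw [mdifferentiableAt_iff_differentiableAt]
      exact (differentiable_id.const_smul (ρ : ℂ)⁻¹) _
    have d4 : MDifferentiableAt 𝓘(ℂ, Cm 2) 𝓘(ℂ, Cm 2) (fun y => (ρ : ℂ)⁻¹ • φ (q y)) (FF z) :=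
      d3.comp (FF z) d2
    exact d4.congr_of_eventuallyEq hev
  · rw [hFimg, hcompl]
    exact hAconn.image _ hp.continuous.continuousOn

/-- A countable set which is closed in a punctured ball misses a thin closed shell. -/
lemma exists_shell {S : Set (Cm 2)} (hS : S.Countable) {r : ℝ} (hr : 0 < r)
    (hSc : ∀ z, 0 < en z → en z < r → z ∉ S → ∀ᶠ w in 𝓝 z, w ∉ S) :
    ∃ s δ : ℝ, r / 4 < s ∧ s < r / 2 ∧ 0 < δ ∧ ∀ z, s - δ ≤ en z → en z ≤ s + δ → z ∉ S := by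
  -- a radius
  obtain ⟨s, hs, hsS⟩ : ∃ s ∈ Ioo (r / 4) (r / 2), s ∉ en '' S := by
    by_contra hcon
    push Not at hcon
    have h1 : (Ioo (r / 4) (r / 2)).Countable := (hS.image en).mono hcon
    exact absurd h1 (Cardinal.Real.Ioo_countable_iff.not.2 (by linarith))
  set O : Set (Cm 2) := interior Sᶜ with hO
  have hOs : ∀ z, en z = s → z ∈ O := by
    intro z hz
    have hzS : z ∉ S := fun h => hsS ⟨z, h, hz⟩
    rw [hO, mem_interior_iff_mem_nhds]
    exact hSc z (by rw [hz]; linarith [hs.1]) (by rw [hz]; linarith [hs.2]) hzS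
  set K : Set (Cm 2) := Metric.closedBall 0 r ∩ Oᶜ with hK
  have hKc : IsCompact K := (isCompact_closedBall 0 r).inter_right isOpen_interior.isClosed_compl
  have himg : IsCompact (en '' K) := hKc.image continuous_en
  have hs' : s ∈ (en '' K)ᶜ := by
    rintro ⟨z, hz, hzs⟩
    exact hz.2 (hOs z hzs)
  obtain ⟨δ, hδ, hball⟩ := Metric.isOpen_iff.1 himg.isClosed.isOpen_compl s hs'
  refine ⟨s, min (δ / 2) (r / 4), hs.1, hs.2, by positivity, fun z h1 h2 hzS => ?_⟩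
  have h3 : min (δ / 2) (r / 4) ≤ δ / 2 := min_le_left _ _
  have h4 : min (δ / 2) (r / 4) ≤ r / 4 := min_le_right _ _
  have hmem : en z ∈ Metric.ball s δ := by
    rw [Metric.mem_ball, Real.dist_eq, abs_lt]
    constructor <;> linarith
  apply hball hmem
  refine ⟨z, ⟨?_, ?_⟩, rfl⟩
  · rw [mem_closedBall_zero_iff]
    exact (norm_le_en z).trans (by linarith [hs.2])
  · intro h
    exact interior_subset h hzS

/-- **Germ-to-shell theorem with a countable exceptional set**: `φ` is inverted only over the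
complement of a countable set `S`, closed in the punctured ball. -/
theorem hasGSS_of_countable
    (p : M → X) (g : M ≃ₜ M) (f : M → ℝ)
    (hp : MDifferentiable 𝓘(ℂ, Cm 2) 𝓘(ℂ, Cm 2) p) (hps : Function.Surjective p)
    (hpo : IsOpenMap p)
    (hpq : ∀ x, ∃ q : X → M, MDifferentiableAt 𝓘(ℂ, Cm 2) 𝓘(ℂ, Cm 2) q (p x) ∧ q (p x) = x ∧
      ∀ᶠ y in 𝓝 (p x), p (q y) = y)
    (hpg : ∀ x y, p x = p y ↔ ∃ k : ℤ, (g ^ k) x = y)
    (hfg : ∀ x, f (g x) = f x - 1)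
    {U : Set M} (hU : IsOpen U) {φ : M → Cm 2} {ψ : Cm 2 → M} {S : Set (Cm 2)} {r : ℝ} (hr : 0 < r)
    (hS : S.Countable) (hSc : ∀ z, 0 < en z → en z < r → z ∉ S → ∀ᶠ w in 𝓝 z, w ∉ S)
    (hφc : ContinuousOn φ U)
    (hφ : ∀ x ∈ U, 0 < en (φ x) → en (φ x) < r → φ x ∉ S →
      MDifferentiableAt 𝓘(ℂ, Cm 2) 𝓘(ℂ, Cm 2) φ x)
    (hψ : ∀ z, 0 < en z → en z < r → z ∉ S → MDifferentiableAt 𝓘(ℂ, Cm 2) 𝓘(ℂ, Cm 2) ψ z)
    (hψU : ∀ z, 0 < en z → en z < r → z ∉ S → ψ z ∈ U ∧ φ (ψ z) = z)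
    (hψφ : ∀ x ∈ U, 0 < en (φ x) → en (φ x) < r → φ x ∉ S → ψ (φ x) = x)
    (hcl : ∀ s, s < r → IsClosed {x | x ∈ U ∧ en (φ x) ≤ s})
    (hin : ∀ s, 0 < s → ∃ R, ∀ x, f x ≤ R → x ∈ U ∧ en (φ x) < s)
    (hout : ∃ R, ∀ x ∈ U, f x ≤ R)
    {c : ℝ} (hc0 : 0 ≤ c) (hc1 : c < 1)
    (hcon : ∀ x ∈ U, en (φ x) < r → g x ∈ U ∧ en (φ (g x)) ≤ c * en (φ x)) :
    HasGSS X := by
  obtain ⟨s, δ, hs1, hs2, hδ, hsS⟩ := exists_shell hS hr hSc
  set η : ℝ := min δ (min (r / 8) (s * (1 - c) / 4)) with hη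
  have hs0 : 0 < s := by linarith
  have hη0 : 0 < η := by
    rw [hη]
    refine lt_min hδ (lt_min (by linarith) ?_)
    apply div_pos (mul_pos hs0 (by linarith)) (by norm_num)
  have hη1 : η ≤ δ := min_le_left _ _
  have hη2 : η ≤ r / 8 := (min_le_right _ _).trans (min_le_left _ _)
  have hη3 : η ≤ s * (1 - c) / 4 := (min_le_right _ _).trans (min_le_right _ _)
  have h10 : 0 < s - η := by linarith
  have hr2 : s + η < r := by linarith
  refine hasGSS_shell p g f hp hps hpo hpq hpg hfg hU (φ := φ) (ψ := ψ) (ρ₁ := s - η) (ρ₂ := s + η)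
    h10 (by linarith) hφc ?_ ?_ ?_ ?_ (hcl _ (by linarith)) (hcl _ hr2) (hin _ (by linarith)) hout
    hc0 hc1 ?_ ?_
  · intro x hx h1 h2
    exact hφ x hx (by linarith) (by linarith) (hsS _ (by linarith) (by linarith))
  · intro z h1 h2
    exact hψ z (by linarith) (by linarith) (hsS _ (by linarith) (by linarith))
  · intro z h1 h2
    exact hψU z (by linarith) (by linarith) (hsS _ (by linarith) (by linarith))
  · intro x hx h1 h2
    exact hψφ x hx (by linarith) (by linarith) (hsS _ (by linarith) (by linarith))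
  · nlinarith
  · intro x hx h
    exact hcon x hx (by linarith)

end Core

end

end Vale.Agent.P267.H581
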